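import Vale.Agent.P257.H420.XInf
import Vale.Agent.P257.H314.CmpInf
import Vale.Agent.P257.H93.FP

/-! # P257 / H420 / CmpI : the comparison `Cob (Laz / I_∞) n → CobP p n`

`fI p n : Cob (QIinf p) n →+* CobP p n` (helper93, `H93/FP.lean`: evaluation at chains of additive
series) is an isomorphism on cohomology, in the form `fI_inj_zero`, `fI_inj`, `fI_surj` (surjective
on cocycles). -/

noncomputable section

namespace Vale.Agent.P257.H420

open Vale.Agent.P251.F Vale.Agent.P251.F.F3 Vale.Agent.P217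
open Vale.Agent.P257.H93 Vale.Agent.P257.H314 LawRing

set_option linter.unusedSectionVars false

variable {p : ℕ} [hp : Fact p.Prime] {n m : ℕ}

theorem ofP_fI (z : Cob (QIinf p) n) : ofP (fI p n z) = Shap.res (resInf p) (ofI z) := by
  rw [← ofP_toP (Shap.res (resInf p) (ofI z))]
  rfl

/-- the section on cochains -/
def gI (p n : ℕ) [Fact p.Prime] (y : CobP p n) : Cob (QIinf p) n :=
  toI (Shap.ext (resInf p) (ofP y))

theorem ofI_gI (y : CobP p n) : ofI (gI p n y) = Shap.ext (resInf p) (ofP y) := ofI_toI _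

theorem fI_gI (y : CobP p n) : fI p n (gI p n y) = y := by
  apply ofP_injective
  rw [ofP_fI, ofI_gI, Shap.res_ext]

theorem gI_d (y : CobP p n) : gI p (n + 1) (dP n y) = Cob.d n (gI p n y) := by
  apply ofI_injective
  rw [ofI_gI, ofI_d, ofI_gI, ofP_dP, Shap.ext_d]

theorem gI_zero : gI p n (0 : CobP p n) = 0 := by
  apply ofI_injective
  rw [ofI_gI, ofP_zero, ofI_zero]
  exact Coch.ext' fun x g => by rw [Shap.ext_f]; simp

theorem gI_wt {w : ℤ} {y : CobP p n} (hy : IsWtP p n w y) : Cob.IsWt w (gI p n y) := by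
  rw [← isWt_ofI, ofI_gI]
  exact Shap.isWt_ext (resInf p) (isWt_ofP.2 hy)

/-- the homotopy -/
def hI (p n : ℕ) [Fact p.Prime] (z : Cob (QIinf p) (n + 1)) : Cob (QIinf p) n :=
  toI ((ofI z).hOp (shapInf p).nmap)

theorem hI_wt {w : ℤ} {z : Cob (QIinf p) (n + 1)} (hz : Cob.IsWt w z) :
    Cob.IsWt w (hI p n z) := isWt_toI.2 (Coch.IsWt.hOp (isWt_ofI.2 hz) _)

theorem hI_d (z : Cob (QIinf p) (n + 1)) :
    hI p (n + 1) (Cob.d (n + 1) z) + Cob.d n (hI p n z) = gI p (n + 1) (fI p (n + 1) z) - z := by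
  apply ofI_injective
  rw [ofI_add, ofI_sub, ofI_gI, ofP_fI, Shap.ext_res, ← Coch.hOp_d]
  congr 1
  · rw [hI, ofI_toI, ofI_d]
  · rw [ofI_d, hI, ofI_toI]

theorem hI_d_zero (z : Cob (QIinf p) 0) :
    hI p 0 (Cob.d 0 z) = gI p 0 (fI p 0 z) - z := by
  apply ofI_injective
  rw [ofI_sub, ofI_gI, ofP_fI, Shap.ext_res, ← Coch.hOp_d_zero, hI, ofI_toI, ofI_d]

theorem hI_zero : hI p n (0 : Cob (QIinf p) (n + 1)) = 0 := by
  apply ofI_injective
  rw [hI, ofI_toI, ofI_zero, ofI_zero]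
  exact Coch.ext' fun x g => by rw [Coch.hOp_f]; simp [hS]

/-! ### the cohomology isomorphism -/

theorem fI_inj_zero (z : Cob (QIinf p) 0) (hd : Cob.d 0 z = 0) (h0 : fI p 0 z = 0) : z = 0 := by
  have h := hI_d_zero z
  rw [hd, h0, hI_zero, gI_zero, zero_sub, eq_comm, neg_eq_zero] at h
  exact h

theorem fI_inj {w : ℤ} {z : Cob (QIinf p) (n + 1)} (hz : Cob.IsWt w z)
    (hd : Cob.d (n + 1) z = 0) {y : CobP p n} (hy : IsWtP p n w y) (h : dP n y = fI p (n + 1) z) :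
    ∃ y' : Cob (QIinf p) n, Cob.IsWt w y' ∧ z = Cob.d n y' := by
  have h1 := hI_d z
  rw [hd, hI_zero, zero_add, ← h, gI_d] at h1
  refine ⟨gI p n y - hI p n z, (Cob.wt (QIinf p) n w).sub_mem (gI_wt hy) (hI_wt hz), ?_⟩
  rw [map_sub, h1]
  abel

theorem fI_surj {w : ℤ} {y : CobP p n} (hy : IsWtP p n w y) (hd : dP n y = 0) :
    ∃ z : Cob (QIinf p) n, Cob.IsWt w z ∧ Cob.d n z = 0 ∧ fI p n z = y :=
  ⟨gI p n y, gI_wt hy, by rw [← gI_d, hd, gI_zero], fI_gI y⟩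

/-- vanishing -/
theorem vanInf_iff_P_zero {w : ℤ} : VanInf p 0 w ↔
    ∀ y : CobP p 0, IsWtP p 0 w y → dP 0 y = 0 → y = 0 := by
  constructor
  · intro h y hy hd
    obtain ⟨z, hz, hdz, rfl⟩ := fI_surj hy hd
    rw [h z hz hdz, map_zero]
  · intro h z hz hd
    exact fI_inj_zero z hd (h _ (fI_wt hz) (by rw [← fI_d, hd, map_zero]))

theorem vanInf_iff_P {s : ℕ} {w : ℤ} : VanInf p (s + 1) w ↔
    ∀ y : CobP p (s + 1), IsWtP p (s + 1) w y → dP (s + 1) y = 0 →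
      ∃ x : CobP p s, IsWtP p s w x ∧ dP s x = y := by
  constructor
  · intro h y hy hd
    obtain ⟨z, hz, hdz, rfl⟩ := fI_surj hy hd
    obtain ⟨c, hc, rfl⟩ := h z hz hdz
    exact ⟨fI p s c, fI_wt hc, (fI_d c).symm⟩
  · intro h z hz hd
    obtain ⟨x, hx, hxz⟩ := h _ (fI_wt hz) (by rw [← fI_d, hd, map_zero])
    obtain ⟨y', hy', h1⟩ := fI_inj hz hd hx hxz
    exact ⟨y', hy', h1.symm⟩

end Vale.Agent.P257.H420

end
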