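import Vale.Agent.P257.H420.CmpI
import Vale.Agent.P257.H545.Cmp

/-! # P257 / H420 / CmpP : the comparison structure `H545.Cmp p` with `X n = CobP p n` -/

noncomputable section

namespace Vale.Agent.P257.H420

open Vale.Agent.P251.F Vale.Agent.P251.F.F3 Vale.Agent.P217
open Vale.Agent.P257.H93 Vale.Agent.P257.H314 LawRing

variable {n m : ℕ}

theorem castP_rfl {p : ℕ} (x : CobP p n) : castP rfl x = x := by
  have h : (castP (rfl : n = n) : CobP p n →+* CobP p n) = RingHom.id _ := by
    apply hom_ext_P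
    intro ki
    simp [castP]
  rw [h]
  rfl

theorem castP_eq {p : ℕ} (h : n = n) (x : CobP p n) : castP h x = x := castP_rfl x

/-- the comparison structure -/
def cmpP (p : ℕ) [hp : Fact p.Prime] : H545.Cmp p where
  X n := CobP p n
  d n := dP n
  IsWt {n} w x := IsWtP p n w x
  add_wt hx hy := hx.add hy
  neg_wt hx := hx.neg
  zero_wt {n w} := isWtP_zero (n := n) w
  d_wt hx := hx.dP
  d_d x := dP_dP _ x
  cup x y := cupP x y
  cup_wt hx hy := hx.cupP hy
  add_cup x x' y := add_cupP x x' y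
  cup_add x y y' := cupP_add x y y'
  d_cup_two {a} x y hy := by
    have h := dP_cupP x y
    rw [hy, cupP_zero, map_zero, smul_zero, add_zero] at h
    exact h.trans (castP_rfl (n := a + 3) _)
  f n := fP p n
  f_IC hz := fP_IC hz
  f_d z := fP_d z
  f_cup x y := fP_cup x y
  f_wt hz := fP_wt hz
  inj_zero {h w} _ hw z hz hdz hf := inj_zero_of_inf hw (fI p 0)
    (fun z _ hd h0 => fI_inj_zero z hd h0) hz hdz hf
  inj {h n w} _ hw z hz hdz y hy hyz := inj_of_inf hw (dP n) (IsWtP p n w) (fI p (n + 1))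
    (fun z hz hd y hy hyz => fI_inj hz hd hy hyz) hz hdz hy hyz
  surj {h n w} _ hw c hc hdc := by
    obtain ⟨z, hz, hdz, hzc⟩ := fI_surj hc hdc
    obtain ⟨z', hz', hdz', rfl⟩ := surj_of_inf hw hz hdz
    exact ⟨z', 0, hz', isWtP_zero _, hdz', by rw [map_zero, add_zero]; exact hzc⟩

end Vale.Agent.P257.H420

end
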