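import Vale.Agent.P257.H93.Wt
import Vale.Agent.P257.H604.Log
import Vale.Agent.P257.H314.Inf

/-! # P257 / H420 / XInf : laws of infinite height as a functor with an action of the strict series

`XInf p : GSet (strictG p)` with `obj B` the laws over `B` all of whose `vv p k` vanish, the base
point `addLaw B`, the section `lg` of helper604: `shapInf : Shap (strictG p) (XInf p) (addG p)`;
`Cob (QIinf p) n` is the group of cochains of `XInf p`. -/

noncomputable section

namespace Vale.Agent.P257.H420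

open Vale.Agent.P251.F Vale.Agent.P251.F.F3 Vale.Agent.P217
open Vale.Agent.P257.H93 Vale.Agent.P257.H314 LawRing

set_option linter.unusedSectionVars false

variable (p : ℕ) [hp : Fact p.Prime]

omit hp in
/-- the laws of infinite height -/
def XI (B : Type) [CommRing B] : Type := {F : Law B // ∀ k, vv p k F = 0}

variable {p}

section act

variable {B C : Type} [CommRing B] [CommRing C]

theorem XI.ext {x y : XI p B} (h : x.1 = y.1) : x = y := Subtype.ext h

instance : MulAction (strict B) (XI p B) where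
  smul g x := ⟨(g : InvSeries B) • x.1, H604.vv_smul_eq_zero x.2 _⟩
  one_smul x := XI.ext (one_smul (InvSeries B) x.1)
  mul_smul g h x := XI.ext (mul_smul (g : InvSeries B) (h : InvSeries B) x.1)

@[simp] theorem XI.smul_val (g : strict B) (x : XI p B) :
    (g • x).1 = (g : InvSeries B) • x.1 := rfl

/-- base change -/
def XI.map (φ : B →+* C) (x : XI p B) : XI p C := ⟨x.1.map φ, fun k => by
  rw [vv_map, x.2, map_zero]⟩

@[simp] theorem XI.map_val (φ : B →+* C) (x : XI p B) : (x.map φ).1 = x.1.map φ := rfl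

/-- scaling -/
def XI.sc (u : Bˣ) (x : XI p B) : XI p B :=
  ⟨(InvSeries.lin u)⁻¹ • x.1, H604.vv_smul_eq_zero x.2 _⟩

@[simp] theorem XI.sc_val (u : Bˣ) (x : XI p B) : (x.sc u).1 = (InvSeries.lin u)⁻¹ • x.1 := rfl

theorem XI.map_smul (φ : B →+* C) (g : strict B) (x : XI p B) :
    XI.map φ (g • x) = smapH φ g • XI.map φ x := by
  apply XI.ext
  rw [XI.map_val, XI.smul_val, XI.smul_val, InvSeries.map_smul, val_smapH, XI.map_val]

theorem XI.sc_smul (u : Bˣ) (g : strict B) (x : XI p B) :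
    XI.sc u (g • x) = scS u g • XI.sc u x := by
  apply XI.ext
  rw [XI.sc_val, XI.smul_val, XI.smul_val, val_scS, XI.sc_val, smul_smul, smul_smul,
    mul_inv_cancel_right]

theorem XI.map_sc (φ : B →+* C) (u : Bˣ) (x : XI p B) :
    XI.map φ (XI.sc u x) = XI.sc (Units.map (φ : B →* C) u) (XI.map φ x) := by
  apply XI.ext
  rw [XI.map_val, XI.sc_val, XI.sc_val, InvSeries.map_smul, map_inv, InvSeries.map_lin,
    XI.map_val]

/-- the base point -/
def XI.pt [FpA p B] : XI p B := ⟨addLaw B, H604.vv_addLaw FpA.cast⟩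

@[simp] theorem XI.pt_val [FpA p B] : (XI.pt : XI p B).1 = addLaw B := rfl

/-- the normal form isomorphism `addLaw → F` -/
def lgS [FpA p B] (x : XI p B) : strict B := ⟨H604.lg FpA.cast x.1 x.2, H604.lg_mem _ _ _⟩

theorem lgS_map [FpA p B] [FpA p C] (φ : B →+* C) (x : XI p B) :
    lgS (x.map φ) = smapH φ (lgS x) :=
  Subtype.ext (H604.map_lg φ FpA.cast FpA.cast x.1 x.2 (x.map φ).2).symm

theorem lgS_sc [FpA p B] (u : Bˣ) (x : XI p B) : lgS (x.sc u) = scS u (lgS x) :=
  Subtype.ext (H604.lg_scale u FpA.cast x.1 x.2 (x.sc u).2)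

theorem lgS_smul [FpA p B] (x : XI p B) : lgS x • (XI.pt : XI p B) = x :=
  XI.ext (H604.lg_smul FpA.cast x.1 x.2)

theorem lgS_pt [FpA p B] : lgS (XI.pt : XI p B) = 1 :=
  Subtype.ext (H604.lg_addLaw FpA.cast (XI.pt : XI p B).2)

end act

variable (p) in
/-- laws of infinite height, as a functor with an action of the strict series -/
@[reducible] def XInf : GSet (strictG p) where
  obj B _ _ := XI p B
  act B _ _ := (inferInstance : MulAction (strict B) (XI p B))
  map φ := XI.map φ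
  map_smul φ g x := XI.map_smul φ g x
  sc u := XI.sc u
  sc_smul u g x := XI.sc_smul u g x
  map_sc φ u x := XI.map_sc φ u x

variable (p) in
/-- the normal form isomorphism as a section -/
@[reducible] def shapInf : Shap (strictG p) (XInf p) (addG p) where
  inc {B} _ _ := (addS B).subtype
  inc_map _ _ := rfl
  inc_sc _ _ := rfl
  inc_inj {B} _ _ := (addS B).subtype_injective
  x₀ := XI.pt
  x₀_map φ := XI.ext (map_addLaw φ)
  x₀_sc u := XI.ext (lin_inv_smul_addLaw u)
  stab {B} _ _ g := by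
    constructor
    · intro h
      exact ⟨⟨g, congrArg Subtype.val h⟩, rfl⟩
    · rintro ⟨k, rfl⟩
      exact XI.ext k.2
  s x := lgS x
  s_map φ x := lgS_map φ x
  s_sc u x := lgS_sc u x
  s_smul x := lgS_smul x
  s_x₀ := lgS_pt

variable (p) in
/-- trivial coefficients -/
@[reducible] def resInf : ResRep (XInf p) (shapInf p) (triv (strictG p)) (triv (addG p)) where
  e {B} _ _ := LinearEquiv.refl B B
  e_map _ _ := rfl
  e_sc _ _ := rfl
  e_smul _ _ := rfl

theorem van_XInf_iff {n : ℕ} {w : ℤ} :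
    Van (XInf p) (triv (strictG p)) n w ↔ Van (pt (addG p)) (triv (addG p)) n w :=
  Shap.van_iff (resInf p)

/-! ### the points of `Cob (QIinf p) n` -/

instance fpA_QIinf : FpA p (QIinf p) := ⟨QIinf.cast_p (RingHom.id _)⟩

theorem fpA_of_pt {B : Type} [CommRing B] (x : QIinf p →+* B) : FpA p B := ⟨QIinf.cast_p x⟩

section lift

variable {B C : Type} [CommRing B] [CommRing C]

/-- the point of `Laz / I_∞` given by a law -/
def ptOf (x : XI p B) : QIinf p →+* B := QIinf.lift x.1 x.2

@[simp] theorem law_ptOf (x : XI p B) : (law (N := QIinf p)).map (ptOf x) = x.1 :=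
  QIinf.law_map_lift x.1 x.2

/-- the law given by a point of `Laz / I_∞` -/
def xOf (x : QIinf p →+* B) : XI p B := ⟨(law (N := QIinf p)).map x, QIinf.vv_law x⟩

@[simp] theorem xOf_val (x : QIinf p →+* B) : (xOf x).1 = (law (N := QIinf p)).map x := rfl

@[simp] theorem ptOf_xOf (x : QIinf p →+* B) : ptOf (xOf x) = x := QIinf.lift_law x

@[simp] theorem xOf_ptOf (x : XI p B) : xOf (ptOf x) = x := XI.ext (law_ptOf x)

theorem comp_ptOf (φ : B →+* C) (x : XI p B) : φ.comp (ptOf x) = ptOf (x.map φ) := by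
  apply QIinf.hom_ext
  rw [← Law.map_map, law_ptOf, law_ptOf, XI.map_val]

theorem act_ptOf (g : strict B) (x : XI p B) :
    act (g : InvSeries B) (ptOf x) = ptOf (g • x) := by
  apply QIinf.hom_ext
  rw [QIinf.act_eq, law_ptOf, law_ptOf, XI.smul_val]

theorem act_lin_ptOf (u : Bˣ) (x : XI p B) :
    act (InvSeries.lin u)⁻¹ (ptOf x) = ptOf (x.sc u) := by
  apply QIinf.hom_ext
  rw [QIinf.act_eq, law_ptOf, law_ptOf, XI.sc_val]

end lift

variable {n m : ℕ}

/-- cochains from functions on chains -/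
def ofI (z : Cob (QIinf p) n) : Coch (XInf p) (triv (strictG p)) n where
  f x g := Cob.ev (ofSeq n (ptOf x) g) z
  nat {B C} _ _ _ _ φ x g := by
    change Cob.ev (ofSeq n (ptOf (XI.map φ x)) fun k => smap φ (g k)) z =
      φ (Cob.ev (ofSeq n (ptOf x) g) z)
    rw [← Cob.ev_map, ofSeq_map, comp_ptOf]
  loc x g g' h := by rw [ofSeq_congr h]
  eqv {B} _ _ h x g := by
    change Cob.ev (ofSeq n (ptOf (h • x)) fun k => g k * h⁻¹) z = Cob.ev (ofSeq n (ptOf x) g) z
    rw [← act_ptOf, ofSeq_translate (ptOf x) g (fun k => g k * h⁻¹) (h : InvSeries B)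
      (fun k _ => rfl)]

theorem ofI_f (z : Cob (QIinf p) n) {B : Type} [CommRing B] [FpA p B] (x : (XInf p).obj B)
    (g : ℕ → (strictG p).obj B) : (ofI z).f x g = Cob.ev (ofSeq n (ptOf x) g) z := rfl

/-- functions on chains from cochains -/
def toI (F : Coch (XInf p) (triv (strictG p)) n) : Cob (QIinf p) n :=
  F.f (B := Cob (QIinf p) n) (xOf MvPolynomial.C) (seq (Cob.univ (QIinf p) n))

theorem toI_ofI (z : Cob (QIinf p) n) : toI (ofI z) = z := by
  rw [toI, ofI_f, ptOf_xOf, ← Cob.univ_pt, ofSeq_seq, Cob.ev_univ]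

theorem ofI_toI (F : Coch (XInf p) (triv (strictG p)) n) : ofI (toI F) = F := by
  apply Coch.ext'
  intro B _ _ x g
  rw [ofI_f, toI]
  set c := ofSeq n (ptOf x) g with hc
  have h1 := F.nat (Cob.ev c) (xOf MvPolynomial.C) (seq (Cob.univ (QIinf p) n))
  change _ = Cob.ev c _ at h1
  rw [← h1]
  have h2 := F.eqv (g 0) x g
  change _ = F.f x g at h2
  rw [← h2]
  have h3 : (XInf p).map (Cob.ev c) (xOf MvPolynomial.C) = g 0 • x := by
    apply XI.ext
    change ((law (N := QIinf p)).map MvPolynomial.C).map (Cob.ev c) = (g 0 : InvSeries B) • x.1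
    rw [Law.map_map]
    have h4 : (Cob.ev c).comp MvPolynomial.C = c.pt := RingHom.ext fun a => Cob.ev_C c a
    rw [h4, hc, ofSeq_pt, QIinf.act_eq, law_ptOf]
  rw [h3]
  refine F.loc _ _ _ fun k hk => ?_
  apply Subtype.ext
  change InvSeries.map (Cob.ev c) ((Cob.univ (QIinf p) n).g ⟨min k n, by omega⟩) =
    (g k : InvSeries B) * (g 0 : InvSeries B)⁻¹
  have h5 := congrArg (fun c : Chain (QIinf p) n B => c.g ⟨min k n, by omega⟩)
    (Cob.univ_map_ev c)
  rw [Chain.map_g] at h5
  rw [h5, hc, ofSeq_g]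
  simp only [Nat.min_eq_left hk]

variable (p n) in
/-- The Yoneda isomorphism. -/
def yonI : Cob (QIinf p) n ≃+ Coch (XInf p) (triv (strictG p)) n where
  toFun := ofI
  invFun := toI
  left_inv := toI_ofI
  right_inv := ofI_toI
  map_add' x y := Coch.ext' fun y' g => map_add (Cob.ev (ofSeq n (ptOf y') g)) x y

@[simp] theorem yonI_apply (z : Cob (QIinf p) n) : yonI p n z = ofI z := rfl
@[simp] theorem yonI_symm_apply (F : Coch (XInf p) (triv (strictG p)) n) :
    (yonI p n).symm F = toI F := rfl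

theorem ofI_injective : Function.Injective (ofI : Cob (QIinf p) n → _) := (yonI p n).injective

theorem ofI_zero : ofI (0 : Cob (QIinf p) n) = 0 := map_zero (yonI p n)
theorem ofI_add (x y : Cob (QIinf p) n) : ofI (x + y) = ofI x + ofI y := map_add (yonI p n) x y
theorem ofI_sub (x y : Cob (QIinf p) n) : ofI (x - y) = ofI x - ofI y := map_sub (yonI p n) x y

/-! ### differential, weights, cup product -/

theorem ofI_d (z : Cob (QIinf p) n) : ofI (Cob.d n z) = (ofI z).d := by
  apply Coch.ext'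
  intro B _ _ x g
  rw [ofI_f, Coch.d_f, dS_apply, Cob.ev_d, Finset.sum_range]
  refine Finset.sum_congr rfl fun j _ => ?_
  rw [ofSeq_res]
  rfl

theorem isWt_ofI {w : ℤ} {z : Cob (QIinf p) n} : (ofI z).IsWt w ↔ Cob.IsWt w z := by
  constructor
  · intro h B _ c u
    have : FpA p B := fpA_of_pt c.pt
    have h1 := h u (xOf c.pt) (seq c)
    change Cob.ev (ofSeq n (ptOf (XI.sc u (xOf c.pt))) fun k => scS u (seq c k)) z =
      ((u ^ w : Bˣ) : B) * Cob.ev (ofSeq n (ptOf (xOf c.pt)) (seq c)) z at h1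
    rw [← act_lin_ptOf, ptOf_xOf, ofSeq_seq] at h1
    rw [← h1]
    congr 1
    conv_lhs => rw [← ofSeq_seq c]
    rw [ofSeq_scale]
    rfl
  · intro h B _ _ u x g
    change Cob.ev (ofSeq n (ptOf (XI.sc u x)) fun k => scS u (g k)) z =
      ((u ^ w : Bˣ) : B) * Cob.ev (ofSeq n (ptOf x) g) z
    rw [← h, ofSeq_scale, act_lin_ptOf]
    rfl

theorem isWt_toI {w : ℤ} {F : Coch (XInf p) (triv (strictG p)) n} :
    Cob.IsWt w (toI F) ↔ F.IsWt w := by
  rw [← isWt_ofI, ofI_toI]

theorem ofSeq_res' {B : Type} [CommRing B] (x : QIinf p →+* B) (G G' : ℕ → strict B)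
    (α : Fin (m + 1) → Fin (n + 1)) (h : ∀ i : Fin (m + 1), G' i = G (α i)) :
    (ofSeq n x G).res α = ofSeq m x G' := by
  have h0 := h 0
  rw [Fin.val_zero] at h0
  ext1
  · rw [Chain.res_pt, ofSeq_pt, ofSeq_g, ofSeq_pt, ← act_mul, inv_mul_cancel_right, h0]
  · funext i
    rw [Chain.res_g, ofSeq_g, ofSeq_g, ofSeq_g, h0, h i, mul_inv_rev, inv_inv, mul_assoc,
      inv_mul_cancel_left]

theorem ofI_cup {a b : ℕ} (x : Cob (QIinf p) a) (y : Cob (QIinf p) b) :
    ofI (Cob.cup x y) = (ofI x).cup (ofI y) := by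
  apply Coch.ext'
  intro B _ _ x' g
  rw [ofI_f, Coch.cup_f, Cob.ev_cup, ofSeq_res' _ g g (Cob.front a b) (fun i => rfl),
    ofSeq_res' _ g (H93.sh a g) (Cob.back a b) (fun i => rfl)]
  rfl

theorem vanInf_iff {s : ℕ} {w : ℤ} :
    VanInf p s w ↔ Van (XInf p) (triv (strictG p)) s w := by
  rcases s with _ | s
  · rw [van_zero]
    constructor
    · intro h F hF hd
      have h1 := h (toI F) (isWt_toI.2 hF) (ofI_injective (by
        rw [ofI_d, ofI_toI, hd, ofI_zero]))
      rw [← ofI_toI F, h1, ofI_zero]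
    · intro h c hc hd
      apply ofI_injective
      rw [ofI_zero]
      exact h (ofI c) (isWt_ofI.2 hc) (by rw [← ofI_d, hd, ofI_zero])
  · rw [van_succ]
    constructor
    · intro h F hF hd
      obtain ⟨c', hc', hd'⟩ := h (toI F) (isWt_toI.2 hF) (ofI_injective (by
        rw [ofI_d, ofI_toI, hd, ofI_zero]))
      exact ⟨ofI c', isWt_ofI.2 hc', by rw [← ofI_d, hd', ofI_toI]⟩
    · intro h c hc hd
      obtain ⟨E, hE, hd'⟩ := h (ofI c) (isWt_ofI.2 hc) (by rw [← ofI_d, hd, ofI_zero])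
      exact ⟨toI E, isWt_toI.2 hE, ofI_injective (by rw [ofI_d, ofI_toI, hd'])⟩

theorem vanInf_iff_van_addG {s : ℕ} {w : ℤ} :
    VanInf p s w ↔ Van (pt (addG p)) (triv (addG p)) s w := vanInf_iff.trans van_XInf_iff

end Vale.Agent.P257.H420

end
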